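import Mathlib

/-! Bernoulli bond percolation on a graph (P151, P165). -/

namespace Vale.Agent.P151W95

open MeasureTheory ProbabilityTheory

universe u

variable {V : Type u}

/-- The open subgraph of the configuration `ω`; the edge `e` is open when `ω e = true`. -/
def openGraph (G : SimpleGraph V) (ω : G.edgeSet → Bool) : SimpleGraph V :=
  SimpleGraph.fromEdgeSet {e | ∃ h : e ∈ G.edgeSet, ω ⟨e, h⟩ = true}

/-- The number `N_∞` of infinite clusters (connected components of the open subgraph). -/
noncomputable def numInf (G : SimpleGraph V) (ω : G.edgeSet → Bool) : ℕ∞ :=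
  {C : (openGraph G ω).ConnectedComponent | C.supp.Infinite}.encard

/-- The product measure `P_p`. -/
noncomputable def bond (G : SimpleGraph V) (p : unitInterval) : Measure (G.edgeSet → Bool) :=
  Measure.infinitePi fun _ => bernoulliMeasure true false p

/-- The random variables `X e` (`true`: `e` is open) are independent, and each edge is open with
probability `p`. -/
structure IsBond (G : SimpleGraph V) (p : unitInterval) {Ω : Type*} [MeasurableSpace Ω]
    (P : Measure Ω) (X : G.edgeSet → Ω → Bool) : Prop where
  meas : ∀ e, Measurable (X e)
  prob : ∀ e, P.real {ω | X e ω = true} = p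
  indep : iIndepFun X P

/-- `p_c = inf {p ∈ [0,1] : P_p(N_∞ ≥ 1) > 0}`. -/
noncomputable def pc (G : SimpleGraph V) : unitInterval :=
  sInf {p | 0 < bond G p {ω | 1 ≤ numInf G ω}}

/-- The automorphism group of `G` has finitely many orbits on `V`. -/
def QuasiTransitive (G : SimpleGraph V) : Prop := Finite (MulAction.orbitRel.Quotient (G ≃g G) V)

end Vale.Agent.P151W95
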