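import Vale.Agent.P151W95.Defs

/-! P151: the percolation probability and the lattices. -/

namespace Vale.Agent.P151W95

open MeasureTheory

universe u

/-- `θ_x(p)`, the probability that the cluster of `x` is infinite. -/
noncomputable def theta {V : Type u} (G : SimpleGraph V) (x : V) (p : unitInterval) : ℝ :=
  (bond G p).real {ω | ((openGraph G ω).connectedComponentMk x).supp.Infinite}

/-- The nearest neighbour lattice `ℤ^d`: `x`, `y` are adjacent when their `ℓ¹` distance is `1`. -/
def lattice (d : ℕ) : SimpleGraph (Fin d → ℤ) where
  Adj x y := ∑ i, |x i - y i| = 1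
  symm := ⟨fun x y h => by simpa only [abs_sub_comm] using h⟩
  loopless := ⟨fun x h => by simp at h⟩

end Vale.Agent.P151W95
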