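import Vale.Agent.P151W95.Defs

/-! Percolation: measurability, the joint law, comparison with `setBernoulli`, isomorphisms. -/

namespace Vale.Agent.P151W95

open MeasureTheory ProbabilityTheory SimpleGraph

universe u v

variable {V : Type u} {G : SimpleGraph V}

theorem meas_reachN [Countable V] (n : ℕ) (x y : V) :
    MeasurableSet {ω : Set (Sym2 V) | ∃ w : (fromEdgeSet ω).Walk x y, w.length = n} := by
  induction n generalizing x with
  | zero =>
    have : {ω : Set (Sym2 V) | ∃ w : (fromEdgeSet ω).Walk x y, w.length = 0} = {_ω | x = y} := by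
      ext ω
      exact ⟨fun ⟨_, hw⟩ => Walk.eq_of_length_eq_zero hw, fun (h : x = y) => h ▸ ⟨Walk.nil, rfl⟩⟩
    rw [this]
    exact MeasurableSet.const _
  | succ n ih =>
    have : {ω : Set (Sym2 V) | ∃ w : (fromEdgeSet ω).Walk x y, w.length = n + 1} =
        ⋃ z : V, (({ω : Set (Sym2 V) | s(x, z) ∈ ω} ∩ {_ω | x ≠ z}) ∩
          {ω | ∃ w : (fromEdgeSet ω).Walk z y, w.length = n}) := by
      ext ω
      simp only [Set.mem_ofPred_eq, Set.mem_iUnion, Set.mem_inter_iff, ← fromEdgeSet_adj]
      constructor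
      · rintro ⟨w, hw⟩
        cases w with
        | nil => simp at hw
        | cons h q => exact ⟨_, h, q, by simpa using hw⟩
      · rintro ⟨z, h, q, hq⟩
        exact ⟨Walk.cons h q, by simpa using hq⟩
    rw [this]
    exact MeasurableSet.iUnion fun z => ((measurableSet_setOfPred.2 (measurable_set_mem _)).inter
      (MeasurableSet.const _)).inter (ih z)

theorem meas_reach [Countable V] (x y : V) :
    MeasurableSet {ω : Set (Sym2 V) | (fromEdgeSet ω).Reachable x y} := by
  have : {ω : Set (Sym2 V) | (fromEdgeSet ω).Reachable x y} =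
      ⋃ n, {ω | ∃ w : (fromEdgeSet ω).Walk x y, w.length = n} := by
    ext ω
    simp only [Set.mem_ofPred_eq, Set.mem_iUnion]
    exact ⟨fun ⟨w⟩ => ⟨w.length, w, rfl⟩, fun ⟨_, w, _⟩ => ⟨w⟩⟩
  rw [this]
  exact MeasurableSet.iUnion fun n => meas_reachN n x y

theorem meas_inf [Countable V] (x : V) :
    MeasurableSet {ω : Set (Sym2 V) | {y | (fromEdgeSet ω).Reachable x y}.Infinite} := by
  have : {ω : Set (Sym2 V) | {y | (fromEdgeSet ω).Reachable x y}.Infinite} =
      ⋂ F : Finset V, ⋃ y : {y : V // y ∉ F},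
        {ω : Set (Sym2 V) | (fromEdgeSet ω).Reachable x y} := by
    ext ω
    simp only [Set.mem_ofPred_eq, Set.mem_iInter, Set.mem_iUnion]
    constructor
    · intro h F
      obtain ⟨y, hy, hyF⟩ := h.exists_notMem_finset F
      exact ⟨⟨y, hyF⟩, hy⟩
    · intro h hfin
      obtain ⟨⟨y, hy⟩, hy2⟩ := h hfin.toFinset
      exact hy (hfin.mem_toFinset.2 hy2)
  rw [this]
  exact MeasurableSet.iInter fun F => MeasurableSet.iUnion fun y => meas_reach x y

theorem supp_eq (H : SimpleGraph V) (x : V) :
    (H.connectedComponentMk x).supp = {y | H.Reachable x y} := by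
  ext y
  rw [ConnectedComponent.mem_supp_iff, ConnectedComponent.eq, reachable_comm]
  rfl

theorem one_le_iff (H : SimpleGraph V) :
    1 ≤ {C : H.ConnectedComponent | C.supp.Infinite}.encard ↔
      ∃ x, {y | H.Reachable x y}.Infinite := by
  rw [Set.one_le_encard_iff_nonempty]
  constructor
  · rintro ⟨C, hC⟩
    induction C using ConnectedComponent.ind with
    | _ x => exact ⟨x, supp_eq H x ▸ hC⟩
  · rintro ⟨x, hx⟩
    exact ⟨H.connectedComponentMk x, by rw [Set.mem_ofPred_eq, supp_eq]; exact hx⟩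

theorem eq_one_iff (H : SimpleGraph V) :
    {C : H.ConnectedComponent | C.supp.Infinite}.encard = 1 ↔
      (∃ x, {y | H.Reachable x y}.Infinite) ∧ ∀ x y, {z | H.Reachable x z}.Infinite →
        {z | H.Reachable y z}.Infinite → H.Reachable x y := by
  rw [le_antisymm_iff, and_comm, one_le_iff, Set.encard_le_one_iff]
  refine and_congr_right fun _ => ⟨fun h x y hx hy => ConnectedComponent.eq.1 (h _ _ ?_ ?_),
    fun h C D => ?_⟩
  · rw [Set.mem_ofPred_eq, supp_eq]; exact hx
  · rw [Set.mem_ofPred_eq, supp_eq]; exact hy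
  · induction C using ConnectedComponent.ind with
    | _ x =>
      induction D using ConnectedComponent.ind with
      | _ y =>
        exact fun hx hy => ConnectedComponent.eq.2 (h x y (supp_eq H x ▸ hx) (supp_eq H y ▸ hy))

theorem meas_ge [Countable V] : MeasurableSet {ω : Set (Sym2 V) |
    1 ≤ {C : (fromEdgeSet ω).ConnectedComponent | C.supp.Infinite}.encard} := by
  simp_rw [one_le_iff, Set.ofPred_exists]
  exact MeasurableSet.iUnion meas_inf

theorem meas_one [Countable V] : MeasurableSet {ω : Set (Sym2 V) |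
    {C : (fromEdgeSet ω).ConnectedComponent | C.supp.Infinite}.encard = 1} := by
  simp_rw [eq_one_iff, Set.ofPred_and, Set.ofPred_exists, Set.ofPred_forall, imp_iff_not_or,
    Set.ofPred_or]
  exact (MeasurableSet.iUnion meas_inf).inter (MeasurableSet.iInter fun x =>
    MeasurableSet.iInter fun y => (meas_inf x).compl.union ((meas_inf y).compl.union
      (meas_reach x y)))

/-- The set of open edges. -/
def toSet (G : SimpleGraph V) (ω : G.edgeSet → Bool) : Set (Sym2 V) :=
  {e | ∃ h : e ∈ G.edgeSet, ω ⟨e, h⟩ = true}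

theorem meas_mem (e : Sym2 V) : MeasurableSet {ω | e ∈ toSet G ω} := by
  by_cases h : e ∈ G.edgeSet
  · have : {ω | e ∈ toSet G ω} = (fun ω : G.edgeSet → Bool => ω ⟨e, h⟩) ⁻¹' {true} := by
      ext ω; simp [toSet, h]
    rw [this]
    exact measurable_pi_apply _ (measurableSet_singleton _)
  · simp [toSet, h]

theorem meas_toSet : Measurable (toSet G) :=
  measurable_set_iff.2 fun e => measurableSet_setOfPred.1 (meas_mem e)

theorem isBond_bond (G : SimpleGraph V) (p : unitInterval) :
    IsBond G p (bond G p) fun e ω => ω e := by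
  refine ⟨fun e => measurable_pi_apply e, fun e => ?_,
    iIndepFun_infinitePi (X := fun _ => id) fun _ => measurable_id⟩
  have h := (measurePreserving_eval_infinitePi
    (fun _ : G.edgeSet => bernoulliMeasure true false p) e).measureReal_preimage
    (measurableSet_singleton true).nullMeasurableSet
  refine h.trans ?_
  simp

theorem IsBond.hasLaw {p : unitInterval} {Ω : Type*} [MeasurableSpace Ω] {P : Measure Ω}
    {X : G.edgeSet → Ω → Bool} (h : IsBond G p P X) : HasLaw (fun ω e => X e ω) (bond G p) P := by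
  have := h.indep.isProbabilityMeasure
  refine ⟨(measurable_pi_lambda _ h.meas).aemeasurable, ?_⟩
  rw [h.indep.map_fun_eq_infinitePi_map h.meas, bond]
  congr 1
  funext e
  have := Measure.isProbabilityMeasure_map (μ := P) (h.meas e).aemeasurable
  have h1 : (P.map (X e)).real {true} = p := by
    rw [map_measureReal_apply (h.meas e) (measurableSet_singleton _)]
    exact h.prob e
  refine Measure.ext_of_measureReal_singleton fun b => ?_
  cases b
  · have h2 : ({false} : Set Bool) = {true}ᶜ := by ext b; cases b <;> simp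
    rw [h2, probReal_compl_eq_one_sub (measurableSet_singleton _), h1]
    simp
  · rw [h1]
    simp

theorem map_toSet (G : SimpleGraph V) (p : unitInterval) :
    (bond G p).map (toSet G) = setBernoulli G.edgeSet p := by
  classical
  have hB := isBond_bond G p
  have := hB.indep.isProbabilityMeasure
  have e1 : ∀ e : G.edgeSet, {ω | e.1 ∈ toSet G ω} =
      (fun ω : G.edgeSet → Bool => ω e) ⁻¹' {true} := fun e => by
    ext ω; simp [toSet]
  have e0 : ∀ e ∉ G.edgeSet, {ω | e ∈ toSet G ω} = ∅ := fun e h => by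
    ext ω; simp [toSet, h]
  have hi : iIndepSet (fun e => {ω | e ∈ toSet G ω}) (bond G p) := by
    refine (iIndepSet_iff_meas_biInter meas_mem).2 fun s => ?_
    by_cases hs : ∀ e ∈ s, e ∈ G.edgeSet
    · have h1 := hB.indep.measure_inter_preimage_eq_mul (s.subtype (· ∈ G.edgeSet))
        (sets := fun _ => {true}) fun _ _ => measurableSet_singleton _
      simp_rw [← e1] at h1
      rw [Finset.prod_subtype_of_mem (fun e => bond G p {ω | e ∈ toSet G ω}) hs] at h1
      rw [← h1]
      congr 1
      ext ω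
      simp only [Set.mem_iInter, Finset.mem_subtype]
      exact ⟨fun h e he => h e he, fun h e he => h ⟨e, hs e he⟩ he⟩
    · push Not at hs
      obtain ⟨e, he, h2⟩ := hs
      rw [Finset.prod_eq_zero he (by rw [e0 e h2, measure_empty])]
      exact measure_mono_null (Set.biInter_subset_of_mem he) (by rw [e0 e h2, measure_empty])
  have hm : ∀ e, Measurable fun ω => e ∈ toSet G ω := fun e =>
    measurableSet_setOfPred.1 (meas_mem e)
  have hf : iIndepFun (fun e ω => e ∈ toSet G ω) (bond G p) :=
    (iIndepFun_iff_iIndep _ _ _).2 hi.iIndep_comap_mem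
  have h3 := hf.map_fun_eq_infinitePi_map hm
  have h4 : ∀ e, (bond G p).map (fun ω => e ∈ toSet G ω) =
      bernoulliMeasure (e ∈ G.edgeSet) False p := fun e => by
    have := Measure.isProbabilityMeasure_map (μ := bond G p) (hm e).aemeasurable
    have h1 : ((bond G p).map fun ω => e ∈ toSet G ω).real {True} =
        (bernoulliMeasure (e ∈ G.edgeSet) False p).real {True} := by
      rw [map_measureReal_apply (hm e) (measurableSet_singleton _)]
      have h5 : (fun ω => e ∈ toSet G ω) ⁻¹' {True} = {ω | e ∈ toSet G ω} := by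
        ext ω; simp
      rw [h5]
      by_cases h : e ∈ G.edgeSet
      · rw [e1 ⟨e, h⟩]
        refine (hB.prob ⟨e, h⟩).trans ?_
        simp [h]
      · rw [e0 e h]
        simp [h, Measure.real]
    refine Measure.ext_of_measureReal_singleton fun b => ?_
    by_cases hb : b
    · rw [eq_true hb]
      exact h1
    · have h2 : ({b} : Set Prop) = {True}ᶜ := by ext c; simp [hb]
      rw [h2, probReal_compl_eq_one_sub (measurableSet_singleton _),
        probReal_compl_eq_one_sub (measurableSet_singleton _), h1]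
  simp_rw [h4] at h3
  rw [setBernoulli_eq_map]
  refine Eq.trans ?_ (congrArg (Measure.map fun q : Sym2 V → Prop => {i | q i}) h3)
  exact (Measure.map_map MeasurableEquiv.setOfPred.measurable (measurable_pi_lambda _ hm)).symm

theorem bond_apply (p : unitInterval) {S : Set (Set (Sym2 V))} (hS : MeasurableSet S) :
    bond G p (toSet G ⁻¹' S) = setBernoulli G.edgeSet p S := by
  rw [← map_toSet, Measure.map_apply meas_toSet hS]

theorem bond_one [Infinite V] [Countable V] (hG : G.Connected) :
    bond G 1 {ω | numInf G ω = 1} = 1 := by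
  refine (bond_apply 1 meas_one).trans ?_
  rw [setBernoulli_one, Measure.dirac_apply_of_mem]
  rw [Set.mem_ofPred_eq, fromEdgeSet_edgeSet, eq_one_iff]
  obtain ⟨o⟩ := hG.nonempty
  exact ⟨⟨o, Set.infinite_univ.mono fun y _ => hG o y⟩, fun x y _ _ => hG x y⟩

theorem coe_sInf {S : Set unitInterval} (h : (1 : unitInterval) ∈ S) :
    ((sInf S : unitInterval) : ℝ) = sInf {p : ℝ | ∃ h : p ∈ Set.Icc (0 : ℝ) 1, ⟨p, h⟩ ∈ S} := by
  rw [Set.Icc.coe_sInf zero_le_one ⟨1, h⟩]
  congr 1
  ext p
  simp

theorem QuasiTransitive.finset (h : QuasiTransitive G) :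
    ∃ S : Finset V, ∀ x : V, ∃ y ∈ S, ∃ φ : G ≃g G, φ y = x := by
  classical
  have : Finite (MulAction.orbitRel.Quotient (G ≃g G) V) := h
  have := Fintype.ofFinite (MulAction.orbitRel.Quotient (G ≃g G) V)
  refine ⟨Finset.univ.image (Quotient.out : MulAction.orbitRel.Quotient (G ≃g G) V → V),
    fun x => ⟨_, Finset.mem_image_of_mem _ (Finset.mem_univ ⟦x⟧), ?_⟩⟩
  obtain ⟨g, hg⟩ := (Quotient.exact (Quotient.out_eq
    (⟦x⟧ : MulAction.orbitRel.Quotient (G ≃g G) V)).symm : x ∈ MulAction.orbit (G ≃g G) _)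
  exact ⟨g, hg⟩

/-- Percolation on isomorphic graphs. -/
theorem bond_iso {W : Type v} {H : SimpleGraph W} [Countable W] (φ : G ≃g H) (p : unitInterval) :
    bond G p {ω | 1 ≤ numInf G ω} = bond H p {ω | 1 ≤ numInf H ω} := by
  have hB := isBond_bond G p
  have h : IsBond H p (bond G p) fun e ω => ω (φ.mapEdgeSet.symm e) :=
    ⟨fun e => hB.meas _, fun e => hB.prob _, hB.indep.precomp φ.mapEdgeSet.symm.injective⟩
  rw [← h.hasLaw.measure_eq (p := fun ω => 1 ≤ numInf H ω) (meas_toSet meas_ge)]
  congr 1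
  ext ω
  let ψ : openGraph G ω ≃g openGraph H fun e => ω (φ.mapEdgeSet.symm e) :=
    ⟨φ.toEquiv, fun {x y} => by
      simp only [openGraph, fromEdgeSet_adj, Set.mem_ofPred_eq]
      refine and_congr ⟨fun ⟨h1, h2⟩ => ⟨φ.map_rel_iff.1 h1, ?_⟩,
        fun ⟨h1, h2⟩ => ⟨φ.map_rel_iff.2 h1, ?_⟩⟩ φ.injective.ne_iff
      · rw [← h2]
        congr 1
        exact φ.mapEdgeSet.eq_symm_apply.2 rfl
      · rw [← h2]
        congr 1
        exact φ.mapEdgeSet.symm_apply_eq.2 rfl⟩
  simp only [Set.mem_ofPred_eq, numInf, Set.one_le_encard_iff_nonempty]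
  exact ⟨fun ⟨C, hC⟩ => ⟨ψ.connectedComponentEquiv C, Set.infinite_coe_iff.1
      ((C.isoEquivSupp ψ).infinite_iff.1 (Set.infinite_coe_iff.2 hC))⟩,
    fun ⟨C, hC⟩ => ⟨ψ.symm.connectedComponentEquiv C, Set.infinite_coe_iff.1
      ((C.isoEquivSupp ψ.symm).infinite_iff.1 (Set.infinite_coe_iff.2 hC))⟩⟩

end Vale.Agent.P151W95
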