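import Vale.Agent.P151W95.Kit
import Vale.Agent.P151W95.Defs2
import Vale.Agent.P151.FULL.Final

/-! P151: comparison with the set model, transfer to all universes, and the main theorems. -/

namespace Vale.Agent.P151W95

open MeasureTheory ProbabilityTheory SimpleGraph

universe u v

section
variable {V : Type u} {G : SimpleGraph V}

theorem ev_eq : {ω | 1 ≤ numInf G ω} = toSet G ⁻¹' P151.hasInfiniteCluster V :=
  Set.ext fun _ => one_le_iff _

theorem meas_has [Countable V] : MeasurableSet (P151.hasInfiniteCluster V) := by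
  have : P151.hasInfiniteCluster V = {ω : Set (Sym2 V) |
      1 ≤ {C : (fromEdgeSet ω).ConnectedComponent | C.supp.Infinite}.encard} :=
    Set.ext fun _ => (one_le_iff _).symm
  rw [this]
  exact meas_ge

theorem bond_has [Countable V] (p : unitInterval) : bond G p {ω | 1 ≤ numInf G ω} =
    setBernoulli G.edgeSet p (P151.hasInfiniteCluster V) := by
  rw [ev_eq, bond_apply p meas_has]

theorem bond_one' [Infinite V] [Countable V] (hG : G.Connected) :
    bond G 1 {ω | 1 ≤ numInf G ω} = 1 := by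
  have := (isBond_bond G 1).indep.isProbabilityMeasure
  exact le_antisymm prob_le_one ((bond_one hG).ge.trans (measure_mono fun _ h => Eq.ge h))

theorem coe_pc [Infinite V] [Countable V] (hG : G.Connected) : (pc G : ℝ) = P151.pc G := by
  have h1 : 0 < bond G 1 {ω | 1 ≤ numInf G ω} := zero_lt_one.trans_eq (bond_one' hG).symm
  refine (coe_sInf (S := {p | 0 < bond G p {ω | 1 ≤ numInf G ω}}) h1).trans ?_
  unfold P151.pc
  congr 1
  ext p
  exact exists_congr fun h => iff_of_eq (congrArg (0 < ·) (bond_has _))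

theorem cl_eq (x : V) : {ω | ((openGraph G ω).connectedComponentMk x).supp.Infinite} =
    toSet G ⁻¹' {ω | {y | (fromEdgeSet ω).Reachable x y}.Infinite} :=
  Set.ext fun _ => iff_of_eq (congrArg Set.Infinite (supp_eq _ x))

theorem meas_cl [Countable V] (x : V) :
    MeasurableSet {ω | ((openGraph G ω).connectedComponentMk x).supp.Infinite} := by
  rw [cl_eq]
  exact meas_toSet (meas_inf x)

theorem theta_zero (x : V) {p : unitInterval} (h : bond G p {ω | 1 ≤ numInf G ω} = 0) :
    theta G x p = 0 := by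
  rw [theta, measureReal_def, measure_mono_null (fun ω hω => ?_) h, ENNReal.toReal_zero]
  exact Set.one_le_encard_iff_nonempty.2 ⟨_, hω⟩

theorem ae_zero [Countable V] {p : unitInterval} (h : bond G p {ω | 1 ≤ numInf G ω} = 0)
    {Ω : Type v} [MeasurableSpace Ω] {P : Measure Ω} {X : G.edgeSet → Ω → Bool}
    (hX : IsBond G p P X) : ∀ᵐ ω ∂P, numInf G (fun e => X e ω) = 0 := by
  rw [← hX.hasLaw.measure_eq (p := fun ω => 1 ≤ numInf G ω) (meas_toSet meas_ge)] at h
  rw [ae_iff]
  refine measure_mono_null (fun ω hω => ?_) h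
  exact Order.one_le_iff_ne_zero.2 hω

theorem no_perc [Infinite V] [G.LocallyFinite] [Countable V] (hG : G.Connected)
    (hqt : QuasiTransitive G) (h1 : pc G < 1) : bond G (pc G) {ω | 1 ≤ numInf G ω} = 0 := by
  obtain ⟨e⟩ : Nonempty (V ≃ ℕ) := by
    obtain ⟨d⟩ := nonempty_denumerable V
    exact ⟨d.eqv⟩
  let φ : G ≃g G.map e := Iso.map e G
  have hlf : (G.map e).LocallyFinite := fun x =>
    Fintype.ofEquiv _ ((φ.symm.mapNeighborSet x).symm)
  have hc : (G.map e).Connected := φ.connected_iff.1 hG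
  have hp : pc G = pc (G.map e) := by
    unfold pc
    simp_rw [bond_iso φ]
  have hq : P151.IsQuasiTransitive (G.map e) := by
    obtain ⟨S, hS⟩ := hqt.finset
    refine ⟨S.image φ, fun x => ?_⟩
    obtain ⟨y, hy, ψ, h⟩ := hS (φ.symm x)
    refine ⟨φ y, Finset.mem_image_of_mem _ hy, (φ.symm.trans ψ).trans φ, ?_⟩
    simp [h]
  rw [bond_iso φ, bond_has, hp]
  refine P151.FULL.no_perc_of_seam P151.FULL.seam hc hq ?_ _ (coe_pc hc)
  rw [← coe_pc hc, ← hp]
  exact h1

end

theorem theta_eq {V : Type} [Countable V] (G : SimpleGraph V) (x : V) :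
    theta G x = P151.H648.theta G x := by
  funext p
  rw [theta, cl_eq, measureReal_def, bond_apply p (meas_inf x)]
  rfl

theorem main {V : Type u} [Infinite V] (G : SimpleGraph V) [G.LocallyFinite] (hG : G.Connected) :
    (MeasurableSet {ω | 1 ≤ numInf G ω} ∧
      ∀ x, MeasurableSet {ω | ((openGraph G ω).connectedComponentMk x).supp.Infinite}) ∧
    (∀ p, IsBond G p (bond G p) fun e ω => ω e) ∧
    (∀ (p : unitInterval) (Ω : Type v) [MeasurableSpace Ω] (P : Measure Ω)
      (X : G.edgeSet → Ω → Bool), IsBond G p P X → HasLaw (fun ω e => X e ω) (bond G p) P) ∧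
    bond G 1 {ω | 1 ≤ numInf G ω} = 1 ∧
    (QuasiTransitive G → pc G < 1 →
      bond G (pc G) {ω | 1 ≤ numInf G ω} = 0 ∧ (∀ x, theta G x (pc G) = 0) ∧
      ∀ (Ω : Type v) [MeasurableSpace Ω] (P : Measure Ω) (X : G.edgeSet → Ω → Bool),
        IsBond G (pc G) P X → ∀ᵐ ω ∂P, numInf G (fun e => X e ω) = 0) := by
  have : Countable V := P151.countable_of_connected G hG
  refine ⟨⟨meas_toSet meas_ge, meas_cl⟩, isBond_bond G, fun _ _ _ _ _ h => h.hasLaw,
    bond_one' hG, fun hqt h1 => ?_⟩
  have h := no_perc hG hqt h1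
  exact ⟨h, fun x => theta_zero x h, fun _ _ _ _ hX => ae_zero h hX⟩

open P151.H648 in
theorem main_lattice (d : ℕ) (hd : 2 ≤ d) :
    0 < pc (lattice d) ∧ pc (lattice d) < 1 ∧
    bond (lattice d) (pc (lattice d)) {ω | 1 ≤ numInf (lattice d) ω} = 0 ∧
    ∀ x, theta (lattice d) x (pc (lattice d)) = 0 ∧ Continuous (theta (lattice d) x) := by
  have hinf := lattice_infinite (d := d) hd
  have hall : P151.pc (P151.H648.lattice d) < 1 ∧ ∀ p : unitInterval,
      (p : ℝ) = P151.pc (P151.H648.lattice d) → setBernoulli (P151.H648.lattice d).edgeSet p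
        (P151.hasInfiniteCluster (Fin d → ℤ)) = 0 := by
    obtain ⟨m, rfl⟩ : ∃ m, d = m + 2 := ⟨d - 2, by omega⟩
    exact P151.ZdT.no_perc (P151.H648.lattice (m + 2)) fun _ _ => Iff.rfl
  have h1 := high (G := P151.H648.lattice d) lattice_connected lattice_transitive
  have h2 := amen (G := P151.H648.lattice d) lattice_connected lattice_transitive
    lattice_amenable hall.2
  have hp : (pc (P151.H648.lattice d) : ℝ) = _ := coe_pc lattice_connected
  have h0 : bond (P151.H648.lattice d) (pc (P151.H648.lattice d))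
      {ω | 1 ≤ numInf (P151.H648.lattice d) ω} = 0 := (bond_has _).trans (hall.2 _ hp)
  rw [← hp] at h1 hall
  refine ⟨h1.1, hall.1, h0, fun x => ⟨theta_zero x h0, ?_⟩⟩
  rw [theta_eq]
  exact h2.1 x

end Vale.Agent.P151W95
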